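import Mathlib
import Crest.Agent.X262.Gc84.Defs

-- ▼ part X262/Gc84/SS
section

/-!
# Row 262, road B (helper84): convolution sums and the recursion in the `G`-degree
-/

set_option autoImplicit false

namespace Crest.Agent.X262.Gc84

open Finset.HasAntidiagonal

variable {ι : Type} [DecidableEq ι] {A : Type*}

/-- the sum over all splittings of a degree and of a multiset of insertions -/
noncomputable def SS {X : Type*} [AddCommMonoid X] (d : ι →₀ ℕ) (s : Multiset A)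
    (F : (ι →₀ ℕ) → Multiset A → (ι →₀ ℕ) → Multiset A → X) : X :=
  ∑ e ∈ antidiagonal d, ((Multiset.antidiagonal s).map fun q => F e.1 q.1 e.2 q.2).sum

section SS

variable {X Y : Type*} [AddCommMonoid X] [AddCommMonoid Y] {d : ι →₀ ℕ} {s : Multiset A}
  {F G : (ι →₀ ℕ) → Multiset A → (ι →₀ ℕ) → Multiset A → X}

theorem SS_congr (h : ∀ d₁ s₁ d₂ s₂, d₁ + d₂ = d → s₁ + s₂ = s → F d₁ s₁ d₂ s₂ = G d₁ s₁ d₂ s₂) :
    SS d s F = SS d s G := by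
  refine Finset.sum_congr rfl fun e he => congrArg Multiset.sum (Multiset.map_congr rfl fun q hq => ?_)
  exact h _ _ _ _ (mem_antidiagonal.1 he) (Multiset.mem_antidiagonal.1 hq)

theorem SS_eq_zero (h : ∀ d₁ s₁ d₂ s₂, d₁ + d₂ = d → s₁ + s₂ = s → F d₁ s₁ d₂ s₂ = 0) :
    SS d s F = 0 := by
  rw [SS_congr (G := fun _ _ _ _ => 0) h]
  simp [SS]

theorem SS_add : SS d s (fun d₁ s₁ d₂ s₂ => F d₁ s₁ d₂ s₂ + G d₁ s₁ d₂ s₂) = SS d s F + SS d s G := by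
  simp only [SS, Multiset.sum_map_add, Finset.sum_add_distrib]

theorem map_SS {Φ : Type*} [FunLike Φ X Y] [AddMonoidHomClass Φ X Y] (φ : Φ) :
    φ (SS d s F) = SS d s fun d₁ s₁ d₂ s₂ => φ (F d₁ s₁ d₂ s₂) := by
  simp only [SS, map_sum, map_multiset_sum, Multiset.map_map, Function.comp_def]

theorem smul_SS {R : Type*} [Semiring R] [Module R X] (c : R) :
    c • SS d s F = SS d s fun d₁ s₁ d₂ s₂ => c • F d₁ s₁ d₂ s₂ :=
  map_SS (DistribSMul.toAddMonoidHom X c)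

theorem SS_swap : SS d s F = SS d s fun d₁ s₁ d₂ s₂ => F d₂ s₂ d₁ s₁ := by
  unfold SS
  rw [Finsupp.sum_antidiagonal_swap d fun a b =>
    ((Multiset.antidiagonal s).map fun q => F a q.1 b q.2).sum]
  refine Finset.sum_congr rfl fun e _ => ?_
  conv_lhs => rw [← Multiset.map_swap_antidiagonal s]
  rw [Multiset.map_map]
  rfl

theorem sum_anti_left (s : Multiset A) (g : Multiset A → Multiset A → X)
    (h : ∀ s₁ s₂, s₁ + s₂ = s → s₁ ≠ 0 → g s₁ s₂ = 0) :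
    ((Multiset.antidiagonal s).map fun q => g q.1 q.2).sum = g 0 s := by
  induction s using Multiset.induction_on generalizing g with
  | empty => simp
  | cons a s ih =>
    rw [Multiset.antidiagonal_cons, Multiset.map_add, Multiset.sum_add, Multiset.map_map,
      Multiset.map_map]
    have e1 := ih (fun s₁ s₂ => g s₁ (a ::ₘ s₂)) fun s₁ s₂ h1 h2 =>
      h _ _ (by rw [Multiset.add_cons, h1]) h2
    have e2 : ((Multiset.antidiagonal s).map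
        ((fun q => g q.1 q.2) ∘ Prod.map (Multiset.cons a) id)).sum = 0 := by
      refine Multiset.sum_eq_zero fun x hx => ?_
      obtain ⟨q, hq, rfl⟩ := Multiset.mem_map.1 hx
      exact h _ _ (by
        change a ::ₘ q.1 + q.2 = _
        rw [Multiset.cons_add, Multiset.mem_antidiagonal.1 hq]) (Multiset.cons_ne_zero)
    rw [e2, add_zero]
    exact e1

theorem SS_left_ms (h : ∀ d₁ s₁ d₂ s₂, d₁ + d₂ = d → s₁ + s₂ = s → s₁ ≠ 0 → F d₁ s₁ d₂ s₂ = 0) :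
    SS d s F = ∑ e ∈ antidiagonal d, F e.1 0 e.2 s :=
  Finset.sum_congr rfl fun e he => sum_anti_left s (fun s₁ s₂ => F e.1 s₁ e.2 s₂) fun _ _ h1 h2 =>
    h _ _ _ _ (mem_antidiagonal.1 he) h1 h2

theorem SS_left (h : ∀ d₁ s₁ d₂ s₂, d₁ + d₂ = d → s₁ + s₂ = s → d₁ ≠ 0 ∨ s₁ ≠ 0 →
    F d₁ s₁ d₂ s₂ = 0) : SS d s F = F 0 0 d s := by
  rw [SS_left_ms fun _ _ _ _ h1 h2 h3 => h _ _ _ _ h1 h2 (Or.inr h3)]
  refine Finset.sum_eq_single_of_mem ((0 : ι →₀ ℕ), d) (mem_antidiagonal.2 (zero_add d))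
    fun e he hne => ?_
  have h1 := mem_antidiagonal.1 he
  refine h _ _ _ _ h1 (zero_add s) (Or.inl fun h0 => hne ?_)
  rw [h0, zero_add] at h1
  exact Prod.ext h0 h1

theorem SS_right (h : ∀ d₁ s₁ d₂ s₂, d₁ + d₂ = d → s₁ + s₂ = s → d₂ ≠ 0 ∨ s₂ ≠ 0 →
    F d₁ s₁ d₂ s₂ = 0) : SS d s F = F d s 0 0 := by
  rw [SS_swap]
  exact SS_left (F := fun d₁ s₁ d₂ s₂ => F d₂ s₂ d₁ s₁) fun _ _ _ _ h1 h2 h3 =>
    h _ _ _ _ ((add_comm _ _).trans h1) ((add_comm _ _).trans h2) h3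

theorem SS_mem {S : Type*} [SetLike S X] [AddSubmonoidClass S X] {W : S}
    (h : ∀ d₁ s₁ d₂ s₂, d₁ + d₂ = d → s₁ + s₂ = s → F d₁ s₁ d₂ s₂ ∈ W) : SS d s F ∈ W := by
  refine sum_mem fun e he => multiset_sum_mem _ fun x hx => ?_
  obtain ⟨q, hq, rfl⟩ := Multiset.mem_map.1 hx
  exact h _ _ _ _ (mem_antidiagonal.1 he) (Multiset.mem_antidiagonal.1 hq)

end SS

variable {k : Type*} [Field k] {V : Type*} [AddCommGroup V] [Module k V]

/-- no zero divisors -/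
theorem SS_dom {y : (ι →₀ ℕ) → Multiset A → k} {f : (ι →₀ ℕ) → Multiset A → V} {d₀ : ι →₀ ℕ}
    (hy : y d₀ 0 ≠ 0) (h : ∀ d s, SS d s (fun d₁ s₁ d₂ s₂ => y d₁ s₁ • f d₂ s₂) = 0) (s : Multiset A) :
    ∀ d, f d s = 0 := by
  induction hn : Multiset.card s using Nat.strong_induction_on generalizing s with
  | _ n ih =>
    have key : ∀ d, ∑ e ∈ antidiagonal d, y e.1 0 • f e.2 s = 0 := by
      intro d
      rw [← h d s, SS_left_ms]
      intro d₁ s₁ d₂ s₂ _ h2 h3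
      have : Multiset.card s₂ < n := by
        have h4 := Multiset.card_pos.2 h3
        rw [← hn, ← h2, Multiset.card_add]
        omega
      rw [ih _ this s₂ rfl, smul_zero]
    intro d
    refine (Module.forall_dual_apply_eq_zero_iff k _).1 fun φ => ?_
    let P : MvPowerSeries ι k := fun n => y n 0
    let R : MvPowerSeries ι k := fun n => φ (f n s)
    have hPR : P * R = 0 := by
      ext n
      rw [MvPowerSeries.coeff_mul, map_zero, ← map_zero φ, ← key n, map_sum]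
      refine Finset.sum_congr (by congr) fun e _ => ?_
      rw [map_smul]
      rfl
    rcases mul_eq_zero.1 hPR with h0 | h0
    · exact absurd (congrFun h0 d₀) hy
    · exact congrFun h0 d

/-- the recursion in the `G`-degree -/
theorem core [CharZero k] (j : ι) (K P : (ι →₀ ℕ) → Multiset A → Prop)
    (hKP : ∀ d₁ s₁ d₂ s₂, P d₁ s₁ → K d₂ s₂ → K (d₁ + d₂) (s₁ + s₂))
    (g : V →ₗ[k] V) (Γ : (ι →₀ ℕ) → Multiset A → V →ₗ[k] V)
    (f₁ f₂ R : (ι →₀ ℕ) → Multiset A → V) (p r y t : (ι →₀ ℕ) → Multiset A → k)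
    (hf₁ : ∀ d s, ¬K d s → f₁ d s = 0) (hf₂ : ∀ d s, ¬K d s → f₂ d s = 0)
    (hyP : ∀ d s, ¬P d s → y d s = 0)
    (hΓ : ∀ d s, d j = 0 → Γ d s = 0) (hp : ∀ d s, d j = 0 → p d s = 0)
    (hr : ∀ d s, d j = 0 → r d s = 0) (hy : ∀ d s, d j = 0 → y d s = 0)
    (ht : ∀ d s, d j = 0 → t d s = 0) (hgg : ∀ d s, g (g (f₁ d s)) = 0)
    (hR : ∀ d s, R d s ∈ Submodule.span k {x | ∃ d₁ s₁, d₁ j < d j ∧ x = f₁ d₁ s₁})
    (e1 : ∀ d s, K d s → g (f₁ d s) + SS d s (fun d₁ s₁ d₂ s₂ => Γ d₁ s₁ (f₁ d₂ s₂)) =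
      f₂ d s + SS d s fun d₁ s₁ d₂ s₂ => p d₁ s₁ • f₁ d₂ s₂ + r d₁ s₁ • f₂ d₂ s₂)
    (e2 : ∀ d s, K d s → g (f₂ d s) + SS d s (fun d₁ s₁ d₂ s₂ => Γ d₁ s₁ (f₂ d₂ s₂)) =
      SS d s fun d₁ s₁ d₂ s₂ => y d₁ s₁ • f₁ d₂ s₂ + t d₁ s₁ • f₂ d₂ s₂)
    (e3 : ∀ d s, K d s → R d s = (d j : k) • f₂ d s +
      SS d s (fun d₁ s₁ d₂ s₂ => (d₂ j : k) • (p d₁ s₁ • f₁ d₂ s₂ + r d₁ s₁ • f₂ d₂ s₂)) +
      ((d j : k) • g (f₁ d s) + SS d s fun d₁ s₁ d₂ s₂ => (d₂ j : k) • Γ d₁ s₁ (f₁ d₂ s₂)))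
    (hend : ∀ d s, d j = 0 → f₂ d s = 0) {d₀ : ι →₀ ℕ} (h₀ : d₀ j = 1) (hy₀ : y d₀ 0 ≠ 0) :
    ∀ d s, f₁ d s = 0 ∧ f₂ d s = 0 := by
  suffices H : ∀ i, ∀ (d : ι →₀ ℕ) s, d j = i → f₁ d s = 0 ∧ f₂ d s = 0 from fun d s => H _ d s rfl
  intro i
  induction i using Nat.strong_induction_on with
  | _ i ih =>
  have lo₁ : ∀ (d : ι →₀ ℕ) s, d j < i → f₁ d s = 0 := fun d s h => (ih _ h d s rfl).1
  have lo₂ : ∀ (d : ι →₀ ℕ) s, d j < i → f₂ d s = 0 := fun d s h => (ih _ h d s rfl).2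
  have ad : ∀ {d₁ d₂ d : ι →₀ ℕ}, d₁ + d₂ = d → d₁ j + d₂ j = d j := fun h => by
    rw [← h, Finsupp.add_apply]
  have Rz : ∀ (φ : V →ₗ[k] V) (d : ι →₀ ℕ) s, (∀ (d₁ : ι →₀ ℕ) s₁, d₁ j < d j → φ (f₁ d₁ s₁) = 0) →
      φ (R d s) = 0 := fun φ d s h => by
    have : Submodule.span k {x | ∃ d₁ s₁, d₁ j < d j ∧ x = f₁ d₁ s₁} ≤ LinearMap.ker φ :=
      Submodule.span_le.2 (by rintro _ ⟨d₁, s₁, h1, rfl⟩; exact h d₁ s₁ h1)
    exact this (hR d s)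
  -- order `i`
  have A1 : ∀ (d : ι →₀ ℕ) s, d j = i → f₂ d s = 0 ∧ g (f₁ d s) = 0 := by
    intro d s hd
    by_cases hK : K d s
    swap
    · rw [hf₁ d s hK, hf₂ d s hK, map_zero]
      exact ⟨rfl, rfl⟩
    have z : ∀ {d₁ d₂ : ι →₀ ℕ}, d₁ + d₂ = d → d₁ j = 0 ∨ d₂ j < i := fun h => by
      have := ad h
      omega
    have a1 := e1 d s hK
    have a3 := e3 d s hK
    rw [SS_eq_zero fun d₁ s₁ d₂ s₂ h _ => (z h).elim (fun h => by simp [hΓ _ _ h])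
        fun h => by simp [lo₁ _ _ h],
      SS_eq_zero fun d₁ s₁ d₂ s₂ h _ => (z h).elim (fun h => by simp [hp _ _ h, hr _ _ h])
        fun h => by simp [lo₁ _ _ h, lo₂ _ _ h], add_zero, add_zero] at a1
    rw [SS_eq_zero fun d₁ s₁ d₂ s₂ h _ => (z h).elim (fun h => by simp [hp _ _ h, hr _ _ h])
        fun h => by simp [lo₁ _ _ h, lo₂ _ _ h],
      SS_eq_zero fun d₁ s₁ d₂ s₂ h _ => (z h).elim (fun h => by simp [hΓ _ _ h])
        fun h => by simp [lo₁ _ _ h], add_zero, add_zero, a1,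
      show R d s = 0 from Rz LinearMap.id d s fun d₁ s₁ h => lo₁ _ _ (hd ▸ h), ← add_smul] at a3
    have h2 : f₂ d s = 0 := by
      rcases Nat.eq_zero_or_pos (d j) with h | h
      · exact hend d s h
      · refine (smul_eq_zero.1 a3.symm).resolve_left ?_
        exact_mod_cast (by omega : d j + d j ≠ 0)
    exact ⟨h2, a1.trans h2⟩
  have le₂ : ∀ (d : ι →₀ ℕ) s, d j ≤ i → f₂ d s = 0 := fun d s h =>
    h.lt_or_eq.elim (lo₂ d s) fun h => (A1 d s h).1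
  have leg : ∀ (d : ι →₀ ℕ) s, d j ≤ i → g (f₁ d s) = 0 := fun d s h =>
    h.lt_or_eq.elim (fun h => by rw [lo₁ d s h, map_zero]) fun h => (A1 d s h).2
  -- order `i + 1`
  have A2 : ∀ (d : ι →₀ ℕ) s, d j = i + 1 → K d s →
      SS d s (fun d₁ s₁ d₂ s₂ => y d₁ s₁ • f₁ d₂ s₂) = 0 := by
    intro d s hd hK
    have z : ∀ {d₁ d₂ : ι →₀ ℕ}, d₁ + d₂ = d → d₁ j = 0 ∨ d₂ j ≤ i := fun h => by
      have := ad h
      omega
    have a1 := congrArg g (e1 d s hK)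
    have a2 := e2 d s hK
    have a3 := congrArg g (e3 d s hK)
    have b : SS d s (fun d₁ s₁ d₂ s₂ => (d₂ j : k) • Γ d₁ s₁ (f₁ d₂ s₂)) =
        (i : k) • SS d s fun d₁ s₁ d₂ s₂ => Γ d₁ s₁ (f₁ d₂ s₂) := by
      rw [smul_SS]
      refine SS_congr fun d₁ s₁ d₂ s₂ h _ => ?_
      rcases z h with h | h
      · simp [hΓ _ _ h]
      · rcases h.lt_or_eq with h | h
        · simp [lo₁ _ _ h]
        · rw [h]
    have c1 : g (SS d s fun d₁ s₁ d₂ s₂ => p d₁ s₁ • f₁ d₂ s₂ + r d₁ s₁ • f₂ d₂ s₂) = 0 := by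
      rw [map_SS]
      exact SS_eq_zero fun d₁ s₁ d₂ s₂ h _ => (z h).elim (fun h => by simp [hp _ _ h, hr _ _ h])
        fun h => by simp [leg _ _ h, le₂ _ _ h]
    have c3 : g (SS d s fun d₁ s₁ d₂ s₂ =>
        (d₂ j : k) • (p d₁ s₁ • f₁ d₂ s₂ + r d₁ s₁ • f₂ d₂ s₂)) = 0 := by
      rw [map_SS]
      exact SS_eq_zero fun d₁ s₁ d₂ s₂ h _ => (z h).elim (fun h => by simp [hp _ _ h, hr _ _ h])
        fun h => by simp [leg _ _ h, le₂ _ _ h]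
    rw [map_add, map_add, hgg, zero_add, c1, add_zero] at a1
    rw [b, Rz g d s fun d₁ s₁ h => leg _ _ (by omega), map_add, map_add, c3, add_zero, map_add,
      map_smul, map_smul, map_smul, hgg, smul_zero, zero_add, a1, ← add_smul] at a3
    have h2 : g (f₂ d s) = 0 := by
      refine (smul_eq_zero.1 a3.symm).resolve_left ?_
      exact_mod_cast (by omega : d j + i ≠ 0)
    rw [h2, zero_add, SS_eq_zero fun d₁ s₁ d₂ s₂ h _ => (z h).elim (fun h => by simp [hΓ _ _ h])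
      fun h => by simp [le₂ _ _ h]] at a2
    rw [a2]
    exact SS_congr fun d₁ s₁ d₂ s₂ h _ => (z h).elim (fun h => by simp [ht _ _ h])
      fun h => by simp [le₂ _ _ h]
  intro d s hd
  refine ⟨?_, (A1 d s hd).1⟩
  have := SS_dom (y := fun d s => if d j = 1 then y d s else 0)
    (f := fun d s => if d j = i then f₁ d s else 0) (d₀ := d₀) (by simpa [h₀] using hy₀) ?_ s d
  · simpa [hd] using this
  intro d s
  by_cases hK : d j = i + 1 ∧ K d s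
  · rw [← A2 d s hK.1 hK.2]
    refine SS_congr fun d₁ s₁ d₂ s₂ h _ => ?_
    have := ad h
    by_cases h1 : d₁ j = 1
    · rw [if_pos h1, if_pos (by omega)]
    · rw [if_neg h1, zero_smul]
      rcases Nat.eq_zero_or_pos (d₁ j) with h0 | h0
      · simp [hy _ _ h0]
      · simp [lo₁ d₂ s₂ (by omega)]
  · refine SS_eq_zero fun d₁ s₁ d₂ s₂ h h' => ?_
    have := ad h
    by_cases h1 : d₁ j = 1
    swap
    · simp [h1]
    by_cases h2 : d₂ j = i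
    swap
    · simp [h2]
    by_cases h3 : P d₁ s₁
    swap
    · simp [hyP _ _ h3]
    by_cases h4 : K d₂ s₂
    swap
    · simp [hf₁ _ _ h4]
    exact absurd ⟨by omega, h ▸ h' ▸ hKP _ _ _ _ h3 h4⟩ hK

end Crest.Agent.X262.Gc84
end

-- ▼ part X262/Gc84/Bas
section

/-!
# Row 262, road B (helper84): consequences of the divisor axiom and of associativity
-/

set_option autoImplicit false

namespace Crest.Agent.X262.Gc84

open Crest.Agent.X262.Ult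

variable {k : Type*} [Field k] {ι : Type} [DecidableEq ι] {H : Type*} [CommRing H] [Algebra k H]

theorem In.cons {A : Submodule k H} {a : H} {l : Multiset H} (ha : a ∈ A) (hl : In A l) :
    In A (a ::ₘ l) := fun b hb => (Multiset.mem_cons.1 hb).elim (fun h => h ▸ ha) (hl b)

theorem In.zero {A : Submodule k H} : In A 0 := fun _ h => absurd h (Multiset.notMem_zero _)

theorem In.add {A : Submodule k H} {l l' : Multiset H} (h : In A l) (h' : In A l') :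
    In A (l + l') := fun b hb => (Multiset.mem_add.1 hb).elim (h b) (h' b)

theorem In.left {A : Submodule k H} {l l' s : Multiset H} (h : In A s) (e : l + l' = s) :
    In A l := fun b hb => h b (e ▸ Multiset.mem_add.2 (Or.inl hb))

theorem In.right {A : Submodule k H} {l l' s : Multiset H} (h : In A s) (e : l + l' = s) :
    In A l' := fun b hb => h b (e ▸ Multiset.mem_add.2 (Or.inr hb))

theorem two_le_card {X : Type*} (x : X) {l : Multiset X} (hl : l ≠ 0) :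
    2 ≤ Multiset.card (x ::ₘ l) := by
  have := Multiset.card_pos.2 hl
  rw [Multiset.card_cons]
  omega

theorem SS_split {X A : Type*} [AddCommMonoid X] {d : ι →₀ ℕ} {s : Multiset A}
    {F : (ι →₀ ℕ) → Multiset A → (ι →₀ ℕ) → Multiset A → X} (j : ι)
    (h : ∀ d₁ s₁ d₂ s₂, d₁ + d₂ = d → s₁ + s₂ = s → d₁ j = 0 → d₁ ≠ 0 ∨ s₁ ≠ 0 →
      F d₁ s₁ d₂ s₂ = 0) :
    SS d s F = F 0 0 d s + SS d s fun d₁ s₁ d₂ s₂ => if d₁ j = 0 then 0 else F d₁ s₁ d₂ s₂ := by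
  have e : SS d s (fun d₁ s₁ d₂ s₂ => if d₁ j = 0 then F d₁ s₁ d₂ s₂ else 0) = F 0 0 d s := by
    rw [SS_left]
    · simp
    · intro d₁ s₁ d₂ s₂ h1 h2 h3
      split_ifs with h4
      exacts [h _ _ _ _ h1 h2 h4 h3, rfl]
  rw [← e, ← SS_add]
  refine SS_congr fun d₁ s₁ d₂ s₂ _ _ => ?_
  split_ifs <;> simp

theorem wd (Q : Hyc k ι H) (d : ι →₀ ℕ) (l : Multiset H) (a b c : H) :
    SS d l (fun d₁ s₁ d₂ s₂ => Q.op d₂ (Q.op d₁ (a ::ₘ b ::ₘ s₁) ::ₘ c ::ₘ s₂)) =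
      SS d l fun d₁ s₁ d₂ s₂ => Q.op d₂ (Q.op d₁ (a ::ₘ c ::ₘ s₁) ::ₘ b ::ₘ s₂) :=
  Q.wdvv d l a b c

section Div

variable {Q : Hyc k ι H} {h : ι → H}

theorem op_div (dv : ∀ j, Q.IsDiv (h j) fun d => (d j : k)) (j : ι) (d : ι →₀ ℕ) (x : H)
    {l : Multiset H} (hl : l ≠ 0) : Q.op d (x ::ₘ h j ::ₘ l) = (d j : k) • Q.op d (x ::ₘ l) := by
  rw [Multiset.cons_swap]
  exact dv j d _ (two_le_card x hl)

/-- a divisor insertion of degree zero kills the operation -/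
theorem op_div_zero [CharZero k] (dv : ∀ j, Q.IsDiv (h j) fun d => (d j : k)) {j : ι}
    {d : ι →₀ ℕ} (hj : d j = 0) (x : H) {l : Multiset H} (hl : d ≠ 0 ∨ l ≠ 0) :
    Q.op d (x ::ₘ h j ::ₘ l) = 0 := by
  by_cases h0 : l = 0
  · subst h0
    obtain ⟨j', hj'⟩ := Finsupp.ne_iff.1 (hl.resolve_right fun h => h rfl)
    have e1 := op_div dv j' d x (l := h j ::ₘ 0) Multiset.cons_ne_zero
    rw [Multiset.cons_swap (h j'), op_div dv j d x Multiset.cons_ne_zero, hj, Nat.cast_zero,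
      zero_smul] at e1
    exact (smul_eq_zero.1 e1.symm).resolve_left (Nat.cast_ne_zero.2 hj')
  · rw [op_div dv j d x h0, hj, Nat.cast_zero, zero_smul]

/-- the operations are linear over a divisor class of degree zero -/
theorem op_lin [CharZero k] (dv : ∀ j, Q.IsDiv (h j) fun d => (d j : k)) {j : ι}
    {d : ι →₀ ℕ} (hj : d j = 0) (x : H) {l : Multiset H} (hl : l ≠ 0) :
    Q.op d ((h j * x) ::ₘ l) = h j * Q.op d (x ::ₘ l) := by
  obtain ⟨b, hb⟩ := Multiset.exists_mem_of_ne_zero hl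
  obtain ⟨l, rfl⟩ := Multiset.exists_cons_of_mem hb
  have e := wd Q d l x (h j) b
  have z : ∀ {d₁ d₂ : ι →₀ ℕ}, d₁ + d₂ = d → d₁ j = 0 ∧ d₂ j = 0 := fun h => by
    rw [← h, Finsupp.add_apply] at hj
    omega
  rw [SS_left fun d₁ s₁ d₂ s₂ h1 _ h3 => by rw [op_div_zero dv (z h1).1 x h3, Q.op_zero],
    SS_right fun d₁ s₁ d₂ s₂ h1 _ h3 => op_div_zero dv (z h1).2 _ h3, Q.cl, Q.cl] at e
  rw [mul_comm, e, mul_comm]

end Div

/-- the commutator -/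
def C (Q : Hyc k ι H) (u : H →ₗ[k] H) (d : ι →₀ ℕ) (l : Multiset H) : H →ₗ[k] H :=
  u ∘ₗ Q.opl d l - Q.opl d l ∘ₗ u







variable (k) in
/-- the filtration by the powers of the ideal `(D, λ)` -/
def Wf (D lam : H) : ℕ → Submodule k H
  | 0 => ⊤
  | t + 1 => (Wf D lam t).map (LinearMap.mulLeft k D) ⊔ (Wf D lam t).map (LinearMap.mulLeft k lam)

theorem Wf_D {D lam x : H} {t : ℕ} (hx : x ∈ Wf k D lam t) : D * x ∈ Wf k D lam (t + 1) :=
  Submodule.mem_sup_left ⟨x, hx, rfl⟩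

theorem Wf_lam {D lam x : H} {t : ℕ} (hx : x ∈ Wf k D lam t) : lam * x ∈ Wf k D lam (t + 1) :=
  Submodule.mem_sup_right ⟨x, hx, rfl⟩

theorem Wf_keep {D lam : H} (T : H →ₗ[k] H) (h1 : ∀ x, T (D * x) = D * T x)
    (h2 : ∀ x, T (lam * x) = lam * T x) (t : ℕ) : Wf k D lam t ≤ (Wf k D lam t).comap T := by
  induction t with
  | zero => exact fun _ _ => trivial
  | succ t ih =>
    refine sup_le ?_ ?_
    · rintro _ ⟨x, hx, rfl⟩
      change T (D * x) ∈ Wf k D lam (t + 1)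
      rw [h1]
      exact Wf_D (ih hx)
    · rintro _ ⟨x, hx, rfl⟩
      change T (lam * x) ∈ Wf k D lam (t + 1)
      rw [h2]
      exact Wf_lam (ih hx)

theorem Wf_bot {D lam : H} (h1 : IsNilpotent D) (h2 : IsNilpotent lam) :
    ∃ t, ∀ x ∈ Wf k D lam t, x = 0 := by
  classical
  have e : ∀ t, Wf k D lam t ≤ ((Ideal.span {D, lam} : Ideal H) ^ t).restrictScalars k := by
    intro t
    induction t with
    | zero => intro x _; simp
    | succ t ih =>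
      refine sup_le ?_ ?_
      · rintro _ ⟨x, hx, rfl⟩
        change D * x ∈ (Ideal.span {D, lam} : Ideal H) ^ (t + 1)
        rw [pow_succ']
        exact Ideal.mul_mem_mul (Ideal.subset_span (by simp)) (ih hx)
      · rintro _ ⟨x, hx, rfl⟩
        change lam * x ∈ (Ideal.span {D, lam} : Ideal H) ^ (t + 1)
        rw [pow_succ']
        exact Ideal.mul_mem_mul (Ideal.subset_span (by simp)) (ih hx)
  have hn : IsNilpotent (Ideal.span {D, lam} : Ideal H) := by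
    refine (Ideal.FG.isNilpotent_iff_le_nilradical ⟨{D, lam}, by simp⟩).2 (Ideal.span_le.2 ?_)
    rintro x (rfl | rfl)
    exacts [h1, h2]
  obtain ⟨t, ht⟩ := hn
  refine ⟨t, fun x hx => ?_⟩
  have : x ∈ (Ideal.span {D, lam} : Ideal H) ^ t := e t hx
  rwa [ht] at this

theorem mem_Me₁ (lam G e : H) : e ∈ Me k lam G e :=
  Submodule.subset_span ⟨0, Or.inl (by simp)⟩

theorem mem_Me₂ (lam G e : H) : G * e ∈ Me k lam G e :=
  Submodule.subset_span ⟨0, Or.inr (by simp)⟩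


theorem Me_dec {lam G e x : H} (hx : x ∈ Me k lam G e) :
    ∃ p r : k, ∃ z ∈ Me k lam G e, x = p • e + r • (G * e) + lam * z := by
  induction hx using Submodule.span_induction with
  | mem x hx =>
    obtain ⟨i, hx⟩ := hx
    rcases i with _ | i
    · rcases hx with rfl | rfl
      · exact ⟨1, 0, 0, zero_mem _, by simp⟩
      · exact ⟨0, 1, 0, zero_mem _, by simp⟩
    · rcases hx with rfl | rfl
      · exact ⟨0, 0, _, Submodule.subset_span ⟨i, Or.inl rfl⟩, by simp; ring⟩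
      · exact ⟨0, 0, _, Submodule.subset_span ⟨i, Or.inr rfl⟩, by simp; ring⟩
  | zero => exact ⟨0, 0, 0, zero_mem _, by simp⟩
  | add x y _ _ hx hy =>
    obtain ⟨p, r, z, hz, rfl⟩ := hx
    obtain ⟨p', r', z', hz', rfl⟩ := hy
    exact ⟨p + p', r + r', z + z', add_mem hz hz', by rw [add_smul, add_smul, mul_add]; abel⟩
  | smul a x _ hx =>
    obtain ⟨p, r, z, hz, rfl⟩ := hx
    exact ⟨a * p, a * r, a • z, Submodule.smul_mem _ _ hz, by
      rw [smul_add, smul_add, smul_smul, smul_smul, mul_smul_comm]⟩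

/-- a `λ`-linear map which sends `e` and `G * e` into a `λ`-stable subspace -/
theorem Me_le_comap {lam G e : H} (T : H →ₗ[k] H) (hT : ∀ x, T (lam * x) = lam * T x)
    {W : Submodule k H} (hW : ∀ x ∈ W, lam * x ∈ W) (h1 : T e ∈ W) (h2 : T (G * e) ∈ W) :
    Me k lam G e ≤ W.comap T := by
  have key : ∀ y, T y ∈ W → ∀ i : ℕ, T (lam ^ i * y) ∈ W := fun y hy i => by
    induction i with
    | zero => simpa using hy
    | succ i ih =>
      rw [pow_succ', mul_assoc, hT]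
      exact hW _ ih
  refine Submodule.span_le.2 ?_
  rintro _ ⟨i, rfl | rfl⟩
  exacts [key _ h1 i, key _ h2 i]

end Crest.Agent.X262.Gc84
end

-- ▼ part X262/Gc84/Inv

/-!
# Row 262, road B (helper84): (GC) as the invariance of `Me e`
-/

set_option autoImplicit false

namespace Crest.Agent.X262.Gc84

open Crest.Agent.X262.Ult

variable {k : Type*} [Field k] [CharZero k] {ι : Type} [DecidableEq ι] {H : Type*} [CommRing H]
  [Algebra k H] {Q : Hyc k ι H} {A : Submodule k H} {h : ι → H} {jA jG jS : ι} {e : H}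

/-- the hypotheses of the invariance theorem -/
structure HypI (Q : Hyc k ι H) (A : Submodule k H) (h : ι → H) (jA jG jS : ι) (e : H) : Prop where
  dv : ∀ j, Q.IsDiv (h j) fun d => (d j : k)
  hA : ∀ j, h j ∈ A
  opA : ∀ d l, In A l → 2 ≤ Multiset.card l → Q.op d l ∈ A
  nilD : IsNilpotent (h jA)
  nilS : IsNilpotent (h jS)
  GG : h jG * h jG = h jS * h jG
  De : h jA * e = 0
  keep : ∀ (d : ι →₀ ℕ) l, d jA = 0 → d jS = 0 → In A l → l ≠ 0 →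
    Q.op d (e ::ₘ l) ∈ Me k (h jS) (h jG) e ∧ Q.op d ((h jG * e) ::ₘ l) ∈ Me k (h jS) (h jG) e
  num : ∃ d : ι →₀ ℕ, d jA = 0 ∧ d jS = 0 ∧ d jG = 1 ∧ ∃ y t : k, y ≠ 0 ∧
    ∃ z ∈ Me k (h jS) (h jG) e,
      Q.op d ((h jG * e) ::ₘ h jG ::ₘ 0) = y • e + t • (h jG * e) + h jS * z
  fin : ∀ (d : ι →₀ ℕ) l, d jG = 0 → d jS = 0 → In A l → l ≠ 0 →
    Q.op d ((h jG * e) ::ₘ l) ∈ Me k (h jS) (h jG) e

omit [CharZero k] in
theorem lam_mul_Me {lam G e x : H} (hx : x ∈ Me k lam G e) : lam * x ∈ Me k lam G e := by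
  have : Me k lam G e ≤ (Me k lam G e).comap (LinearMap.mulLeft k lam) := by
    refine Submodule.span_le.2 ?_
    rintro _ ⟨i, rfl | rfl⟩
    · exact Submodule.subset_span ⟨i + 1, Or.inl (by simp [pow_succ', mul_assoc])⟩
    · exact Submodule.subset_span ⟨i + 1, Or.inr (by simp [pow_succ', mul_assoc])⟩
  exact this hx

omit [CharZero k] in
theorem D_mul_Me {D lam G e x : H} (hD : D * e = 0) (hx : x ∈ Me k lam G e) : D * x = 0 := by
  have : Me k lam G e ≤ (⊥ : Submodule k H).comap (LinearMap.mulLeft k D) := by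
    refine Me_le_comap _ (fun x => mul_left_comm _ _ _) (fun x hx => ?_) hD ?_
    · rw [(Submodule.mem_bot k).1 hx, mul_zero]
      exact zero_mem _
    · change D * (G * e) = 0
      rw [mul_left_comm, hD, mul_zero]
  exact this hx

/-- one step in the `(D, λ)`-adic filtration -/
theorem stepI (hy : HypI Q A h jA jG jS e) {n : ℕ} (hn : n ≠ 0)
    (ihM : ∀ (d : ι →₀ ℕ) l, d jA < n → d jS = 0 → In A l → l ≠ 0 →
      ∀ x ∈ Me k (h jS) (h jG) e, Q.op d (x ::ₘ l) ∈ Me k (h jS) (h jG) e) (t : ℕ)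
    (ht' : ∀ (d : ι →₀ ℕ) l, d jA = n → d jS = 0 → In A l → l ≠ 0 → ∀ x ∈ Me k (h jS) (h jG) e,
      Q.op d (x ::ₘ l) ∈ Me k (h jS) (h jG) e ⊔ Wf k (h jA) (h jS) t)
    (d : ι →₀ ℕ) (l : Multiset H) (hd : d jA = n) (hS : d jS = 0) (hl : In A l) (hl0 : l ≠ 0) :
    ∀ x ∈ Me k (h jS) (h jG) e,
      Q.op d (x ::ₘ l) ∈ Me k (h jS) (h jG) e ⊔ Wf k (h jA) (h jS) (t + 1) := by
  classical
  have dv := hy.dv
  have hnk : (n : k) ≠ 0 := Nat.cast_ne_zero.2 hn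
  have ad : ∀ {d₁ d₂ d : ι →₀ ℕ} (j : ι), d₁ + d₂ = d → d₁ j + d₂ j = d j := fun j h => by
    rw [← h, Finsupp.add_apply]
  set M := Me k (h jS) (h jG) e with hM
  set W := M ⊔ Wf k (h jA) (h jS) t with hW
  set W' := M ⊔ Wf k (h jA) (h jS) (t + 1) with hW'
  let K : (ι →₀ ℕ) → Multiset H → Prop := fun d s => d jA = n ∧ d jS = 0 ∧ In A s
  let P : (ι →₀ ℕ) → Multiset H → Prop := fun d s => d jA = 0 ∧ d jS = 0 ∧ In A s
  obtain ⟨C, hC, ih⟩ : ∃ C : (ι →₀ ℕ) → Multiset H → H →ₗ[k] H,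
      (∀ (d : ι →₀ ℕ) l x, d jA = n → C d l x = Q.op d (x ::ₘ l)) ∧
      ∀ (d : ι →₀ ℕ) l x, d jA ≠ n → C d l x = 0 :=
    ⟨fun d l => if d jA = n then Q.opl d l else 0, fun d l x h1 => by simp [h1],
      fun d l x h1 => by simp [h1]⟩
  have ht : ∀ (d : ι →₀ ℕ) l, d jA = n → d jS = 0 → In A l → l ≠ 0 → ∀ x ∈ M, C d l x ∈ W :=
    fun d l h1 h2 h3 h4 x hx => hC d l x h1 ▸ ht' d l h1 h2 h3 h4 x hx
  have Cdv : ∀ j (d : ι →₀ ℕ) {l}, l ≠ 0 → ∀ x, C d (h j ::ₘ l) x = (d j : k) • C d l x :=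
    fun j d l hl x => by
      by_cases h1 : d jA = n
      · rw [hC _ _ _ h1, hC _ _ _ h1, op_div dv j d x hl]
      · rw [ih _ _ _ h1, ih _ _ _ h1, smul_zero]
  obtain ⟨c, hc⟩ : ∃ c : (ι →₀ ℕ) → Multiset H → H →ₗ[k] H,
      ∀ d s x, C d (h jA ::ₘ s) x = (n : k) • c d s x :=
    ⟨fun d s => (n : k)⁻¹ • C d (h jA ::ₘ s), fun d s x => by
      rw [LinearMap.smul_apply, smul_inv_smul₀ hnk]⟩
  have hcl : ∀ (d : ι →₀ ℕ) l x, d jA = n → l ≠ 0 → C d l x = c d l x := fun d l x h1 h2 => by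
    have := hc d l x
    rw [Cdv jA d h2, h1] at this
    exact smul_right_injective H hnk this
  have hc0 : ∀ (d : ι →₀ ℕ) s x, d jA < n → c d s x = 0 := fun d s x h1 => by
    have := hc d s x
    rw [ih d _ _ h1.ne] at this
    exact (smul_eq_zero.1 this.symm).resolve_left hnk
  have hcW : ∀ d s, K d s → ∀ x ∈ M, c d s x ∈ W := fun d s hK x hx => by
    have := ht d _ hK.1 hK.2.1 (hK.2.2.cons (hy.hA jA)) Multiset.cons_ne_zero x hx
    rw [hc] at this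
    exact (Submodule.smul_mem_iff _ hnk).1 this
  have hcl' : ∀ (d : ι →₀ ℕ) s x, d jS = 0 → c d s (h jS * x) = h jS * c d s x :=
    fun d s x h1 => by
      refine smul_right_injective H hnk ?_
      change (n : k) • _ = (n : k) • _
      rw [← hc, ← mul_smul_comm, ← hc]
      by_cases h2 : d jA = n
      · rw [hC _ _ _ h2, hC _ _ _ h2, op_lin dv h1 _ Multiset.cons_ne_zero]
      · rw [ih _ _ _ h2, ih _ _ _ h2, mul_zero]
  have hcG : ∀ (d : ι →₀ ℕ) s x, d jA ≤ n → C d (h jG ::ₘ s) x = (d jG : k) • c d s x :=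
    fun d s x h1 => by
    rcases h1.lt_or_eq with h1 | h1
    · rw [ih d _ _ h1.ne, hc0 d s x h1, smul_zero]
    · refine smul_right_injective H hnk ?_
      change (n : k) • _ = (n : k) • _
      rw [smul_comm, ← hc, ← Cdv jG d Multiset.cons_ne_zero, Multiset.cons_swap,
        Cdv jA d Multiset.cons_ne_zero, h1]
  have kT : ∀ d s, P d s → W' ≤ W'.comap (Q.opl d (h jG ::ₘ s)) := fun d s hP =>
    sup_le (fun x hx => Submodule.mem_sup_left (ihM d _ (hP.1 ▸ Nat.pos_of_ne_zero hn) hP.2.1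
        (hP.2.2.cons (hy.hA jG)) Multiset.cons_ne_zero x hx))
      fun x hx => Submodule.mem_sup_right (Wf_keep (Q.opl d (h jG ::ₘ s))
        (fun x => op_lin dv hP.1 x Multiset.cons_ne_zero)
        (fun x => op_lin dv hP.2.1 x Multiset.cons_ne_zero) _ hx)
  have kG : W' ≤ W'.comap (LinearMap.mulLeft k (h jG)) := fun x hx => by
    have := kT 0 0 ⟨rfl, rfl, In.zero⟩ hx
    rwa [Submodule.mem_comap, Hyc.opl_apply, Q.cl, mul_comm] at this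
  have kL : W' ≤ W'.comap (LinearMap.mulLeft k (h jS)) :=
    sup_le (fun x hx => Submodule.mem_sup_left (lam_mul_Me hx))
      fun x hx => Submodule.mem_sup_right (Wf_keep (LinearMap.mulLeft k (h jS))
        (fun x => mul_left_comm _ _ _) (fun x => mul_left_comm _ _ _) _ hx)
  have W_D : ∀ {x}, x ∈ W → h jA * x ∈ W' := fun {x} hx => by
    obtain ⟨a, ha, b, hb, rfl⟩ := Submodule.mem_sup.1 hx
    rw [mul_add, D_mul_Me hy.De ha, zero_add]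
    exact Submodule.mem_sup_right (Wf_D hb)
  have W_l : ∀ {x}, x ∈ W → h jS * x ∈ W' := fun {x} hx => by
    obtain ⟨a, ha, b, hb, rfl⟩ := Submodule.mem_sup.1 hx
    rw [mul_add]
    exact Submodule.add_mem_sup (lam_mul_Me ha) (Wf_lam hb)
  have hπ : ∀ {x}, x ∈ W' → W'.mkQ x = 0 := fun hx => (Submodule.Quotient.mk_eq_zero _).2 hx
  suffices main : ∀ d s, K d s → c d s e ∈ W' ∧ c d s (h jG * e) ∈ W' by
    intro x hx
    rw [← hC d l x hd, hcl d l x hd hl0]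
    exact Me_le_comap (c d l) (fun x => hcl' d l x hS) (W := W') (fun x hx => kL hx)
      (main d l ⟨hd, hS, hl⟩).1 (main d l ⟨hd, hS, hl⟩).2 hx
  have m₁ : e ∈ M := mem_Me₁ _ _ _
  have m₂ : h jG * e ∈ M := mem_Me₂ _ _ _
  obtain ⟨d₀, a₀, s₀, g₀, y₀, t₀, hy₀, z₀, hz₀, e₀⟩ := hy.num
  have ex1 : ∀ d s, ∃ p r : k, (P d s ∧ d jG ≠ 0 → ∃ z ∈ M,
      Q.op d (e ::ₘ h jG ::ₘ s) = p • e + r • (h jG * e) + h jS * z) ∧
      (¬(P d s ∧ d jG ≠ 0) → p = 0 ∧ r = 0) := fun d s => by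
    by_cases hP : P d s ∧ d jG ≠ 0
    · obtain ⟨p, r, z, hz, e1⟩ := Me_dec (hy.keep d _ hP.1.1 hP.1.2.1
        (hP.1.2.2.cons (hy.hA jG)) Multiset.cons_ne_zero).1
      exact ⟨p, r, fun _ => ⟨z, hz, e1⟩, fun h => absurd hP h⟩
    · exact ⟨0, 0, fun h => absurd h hP, fun _ => ⟨rfl, rfl⟩⟩
  have ex2 : ∀ d s, ∃ p r : k, (P d s ∧ d jG ≠ 0 → ∃ z ∈ M,
      Q.op d ((h jG * e) ::ₘ h jG ::ₘ s) = p • e + r • (h jG * e) + h jS * z) ∧
      (¬(P d s ∧ d jG ≠ 0) → p = 0 ∧ r = 0) ∧ (d = d₀ → s = 0 → p ≠ 0) := fun d s => by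
    by_cases h0 : d = d₀ ∧ s = 0
    · obtain ⟨rfl, rfl⟩ := h0
      exact ⟨y₀, t₀, fun _ => ⟨z₀, hz₀, e₀⟩,
        fun h => absurd ⟨⟨a₀, s₀, In.zero⟩, by omega⟩ h, fun _ _ => hy₀⟩
    by_cases hP : P d s ∧ d jG ≠ 0
    · obtain ⟨p, r, z, hz, e1⟩ := Me_dec (hy.keep d _ hP.1.1 hP.1.2.1
        (hP.1.2.2.cons (hy.hA jG)) Multiset.cons_ne_zero).2
      exact ⟨p, r, fun _ => ⟨z, hz, e1⟩, fun h => absurd hP h, fun h1 h2 => absurd ⟨h1, h2⟩ h0⟩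
    · exact ⟨0, 0, fun h => absurd h hP, fun _ => ⟨rfl, rfl⟩, fun h1 h2 => absurd ⟨h1, h2⟩ h0⟩
  choose p r hpr hpr0 using ex1
  choose y τ hyt hyt0 hyd using ex2
  let g : H ⧸ W' →ₗ[k] H ⧸ W' := W'.mapQ W' _ kG
  have hg : ∀ x, g (W'.mkQ x) = W'.mkQ (h jG * x) := fun x => rfl
  obtain ⟨Γ, hΓ, hΓ0⟩ : ∃ Γ : (ι →₀ ℕ) → Multiset H → H ⧸ W' →ₗ[k] H ⧸ W',
      (∀ d s x, P d s → d jG ≠ 0 → Γ d s (W'.mkQ x) = W'.mkQ (Q.op d (x ::ₘ h jG ::ₘ s))) ∧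
      ∀ d s, d jG = 0 → Γ d s = 0 :=
    ⟨fun d s => if hP : P d s ∧ d jG ≠ 0 then W'.mapQ W' _ (kT d s hP.1) else 0,
      fun d s x h1 h2 => by
        beta_reduce
        rw [dif_pos ⟨h1, h2⟩]
        rfl,
      fun d s h1 => dif_neg fun h => h.2 h1⟩
  obtain ⟨f, hf, hf0⟩ : ∃ f : H → (ι →₀ ℕ) → Multiset H → H ⧸ W',
      (∀ x d s, K d s → f x d s = W'.mkQ (c d s x)) ∧ ∀ x d s, ¬K d s → f x d s = 0 :=
    ⟨fun x d s => if K d s then W'.mkQ (c d s x) else 0, fun x d s h => if_pos h,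
      fun x d s h => if_neg h⟩
  have cs : ∀ {d s d₁ s₁ d₂ s₂}, K d s → d₁ + d₂ = d → s₁ + s₂ = s →
      (P d₁ s₁ ∧ K d₂ s₂) ∨ (d₂ jA < n ∧ d₂ jS = 0 ∧ In A s₂) := by
    intro d s d₁ s₁ d₂ s₂ hK h1 h2
    have b1 := ad jA h1
    have b2 := ad jS h1
    obtain ⟨k1, k2, k3⟩ := hK
    by_cases h3 : d₂ jA = n
    · exact Or.inl ⟨⟨by omega, by omega, k3.left h2⟩, h3, by omega, k3.right h2⟩
    · exact Or.inr ⟨by omega, by omega, k3.right h2⟩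
  have SS₂ : ∀ d s, K d s → ∀ a ∈ A, ∀ b ∈ A, ∀ x ∈ M,
      W'.mkQ (SS d s fun d₁ s₁ d₂ s₂ => Q.op d₂ (Q.op d₁ (x ::ₘ a ::ₘ s₁) ::ₘ b ::ₘ s₂)) =
      W'.mkQ (SS d s fun d₁ s₁ d₂ s₂ => C d₂ (b ::ₘ s₂) (Q.op d₁ (x ::ₘ a ::ₘ s₁))) +
      W'.mkQ (SS d s fun d₁ s₁ d₂ s₂ => Q.op d₂ (C d₁ (a ::ₘ s₁) x ::ₘ b ::ₘ s₂)) := by
    intro d s hK a ha b hb x hx
    rw [map_SS, map_SS, map_SS, ← SS_add]
    refine SS_congr fun d₁ s₁ d₂ s₂ h1 h2 => ?_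
    have b1 := ad jA h1
    have b2 := ad jS h1
    obtain ⟨k1, k2, k3⟩ := hK
    by_cases h3 : d₂ jA = n
    · rw [hC _ _ _ h3, ih d₁ _ _ (by omega), Q.op_zero, map_zero, add_zero]
    rw [ih _ _ _ h3, map_zero, zero_add]
    by_cases h4 : d₁ jA = n
    · rw [hC _ _ _ h4]
    rw [ih _ _ _ h4, Q.op_zero, map_zero]
    exact hπ (Submodule.mem_sup_left (ihM d₂ _ (by omega) (by omega) ((k3.right h2).cons hb)
      Multiset.cons_ne_zero _ (ihM d₁ _ (by omega) (by omega) ((k3.left h2).cons ha)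
        Multiset.cons_ne_zero x hx)))
  have L1 : ∀ (w : (ι →₀ ℕ) → k) (x : H) (a b : (ι →₀ ℕ) → Multiset H → k),
      (∀ d s, P d s ∧ d jG ≠ 0 → ∃ z ∈ M,
        Q.op d (x ::ₘ h jG ::ₘ s) = a d s • e + b d s • (h jG * e) + h jS * z) →
      (∀ d s, ¬(P d s ∧ d jG ≠ 0) → a d s = 0 ∧ b d s = 0) → ∀ d s, K d s →
      W'.mkQ (SS d s fun d₁ s₁ d₂ s₂ => w d₂ • c d₂ s₂ (Q.op d₁ (x ::ₘ h jG ::ₘ s₁))) =
        w d • f (h jG * x) d s + SS d s fun d₁ s₁ d₂ s₂ =>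
          w d₂ • (a d₁ s₁ • f e d₂ s₂ + b d₁ s₁ • f (h jG * e) d₂ s₂) := by
    intro w x a b h1 h2 d s hK
    rw [SS_split jG fun d₁ s₁ d₂ s₂ _ _ h3 h4 => by
      rw [op_div_zero dv h3 x h4, map_zero, smul_zero], map_add, map_smul, Q.cl, mul_comm x,
      ← hf _ d s hK, map_SS]
    congr 1
    refine SS_congr fun d₁ s₁ d₂ s₂ e1 e2 => ?_
    split_ifs with h3
    · obtain ⟨ha, hb⟩ := h2 d₁ s₁ fun h => h.2 h3
      simp [ha, hb]
    rcases cs hK e1 e2 with ⟨hP, hK₂⟩ | ⟨k1, k2, k3⟩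
    · obtain ⟨z, hz, e3⟩ := h1 d₁ s₁ ⟨hP, h3⟩
      rw [e3, map_smul, map_add, map_add, map_add, map_add, hcl' _ _ _ hK₂.2.1,
        hπ (W_l (hcW _ _ hK₂ z hz)), add_zero, map_smul, map_smul, map_smul,
        map_smul, hf _ _ _ hK₂, hf _ _ _ hK₂]
    · have hK₂ : ¬K d₂ s₂ := fun h => k1.ne h.1
      rw [hc0 _ _ _ k1, hf0 _ _ _ hK₂, hf0 _ _ _ hK₂]
      simp
  have L2 : ∀ (w : (ι →₀ ℕ) → k) (x : H) d s, K d s →
      W'.mkQ (SS d s fun d₁ s₁ d₂ s₂ => w d₁ • Q.op d₂ (c d₁ s₁ x ::ₘ h jG ::ₘ s₂)) =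
        w d • g (f x d s) + SS d s fun d₁ s₁ d₂ s₂ => w d₂ • Γ d₁ s₁ (f x d₂ s₂) := by
    intro w x d s hK
    rw [SS_swap, SS_split jG fun d₁ s₁ d₂ s₂ _ _ h3 h4 => by
      rw [op_div_zero dv h3 _ h4, smul_zero], map_add, map_smul, Q.cl, mul_comm, ← hg,
      ← hf _ d s hK, map_SS]
    congr 1
    refine SS_congr fun d₁ s₁ d₂ s₂ e1 e2 => ?_
    split_ifs with h3
    · simp [hΓ0 _ _ h3]
    rcases cs hK e1 e2 with ⟨hP, hK₂⟩ | ⟨k1, k2, k3⟩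
    · rw [map_smul, hf _ _ _ hK₂, hΓ _ _ _ hP h3]
    · rw [hc0 _ _ _ k1, hf0 _ _ _ fun h => k1.ne h.1, Q.op_zero]
      simp
  have E1 : ∀ x ∈ M, ∀ d s, K d s →
      W'.mkQ (SS d s fun d₁ s₁ d₂ s₂ => (n : k) • Q.op d₂ (c d₁ s₁ x ::ₘ h jG ::ₘ s₂)) =
      W'.mkQ (SS d s fun d₁ s₁ d₂ s₂ => (n : k) • c d₂ s₂ (Q.op d₁ (x ::ₘ h jG ::ₘ s₁))) := by
    intro x hx d s hK
    have e1 := congrArg W'.mkQ (wd Q d s x (h jG) (h jA))
    rw [SS₂ d s hK _ (hy.hA jG) _ (hy.hA jA) x hx, SS₂ d s hK _ (hy.hA jA) _ (hy.hA jG) x hx] at e1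
    have e2 : SS d s (fun d₁ s₁ d₂ s₂ => Q.op d₂ (C d₁ (h jG ::ₘ s₁) x ::ₘ h jA ::ₘ s₂)) =
        h jA * C d (h jG ::ₘ s) x := by
      rw [SS_right, Q.cl, mul_comm]
      intro d₁ s₁ d₂ s₂ h1 h2 h3
      rcases cs hK ((add_comm _ _).trans h1) ((add_comm _ _).trans h2) with ⟨hP, -⟩ | ⟨k1, -, -⟩
      · exact op_div_zero dv hP.1 _ h3
      · rw [ih _ _ _ k1.ne, Q.op_zero]
    have e3 : SS d s (fun d₁ s₁ d₂ s₂ =>
        C d₂ (h jG ::ₘ s₂) (Q.op d₁ (x ::ₘ h jA ::ₘ s₁))) = 0 := by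
      refine SS_eq_zero fun d₁ s₁ d₂ s₂ h1 h2 => ?_
      rcases cs hK h1 h2 with ⟨hP, -⟩ | ⟨k1, -, -⟩
      · by_cases h3 : d₁ ≠ 0 ∨ s₁ ≠ 0
        · rw [op_div_zero dv hP.1 _ h3, map_zero]
        · push Not at h3
          rw [h3.1, h3.2, Q.cl, mul_comm, D_mul_Me hy.De hx, map_zero]
      · exact ih _ _ _ k1.ne
    simp only [hc, Q.smul] at e1
    rw [e2, e3, map_zero, zero_add, hπ (W_D (ht d _ hK.1 hK.2.1 (hK.2.2.cons (hy.hA jG))
      Multiset.cons_ne_zero x hx)), add_zero] at e1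
    exact e1.symm
  let R : (ι →₀ ℕ) → Multiset H → H ⧸ W' := fun d s => if K d s then W'.mkQ (SS d s
    fun d₁ s₁ d₂ s₂ => if d₁ jG = 0 then 0 else
      C d₂ (Q.op d₁ (h jG ::ₘ h jG ::ₘ s₁) ::ₘ s₂) e) else 0
  have key := core (k := k) jG K P
    (fun d₁ s₁ d₂ s₂ h1 h2 => ⟨by rw [Finsupp.add_apply, h1.1, h2.1, zero_add],
      by rw [Finsupp.add_apply, h1.2.1, h2.2.1], h1.2.2.add h2.2.2⟩)
    g Γ (f e) (f (h jG * e)) R p r y τ (hf0 _) (hf0 _)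
    (fun d s h => (hyt0 d s fun h' => h h'.1).1) hΓ0
    (fun d s h => (hpr0 d s fun h' => h'.2 h).1) (fun d s h => (hpr0 d s fun h' => h'.2 h).2)
    (fun d s h => (hyt0 d s fun h' => h'.2 h).1) (fun d s h => (hyt0 d s fun h' => h'.2 h).2)
    ?_ ?_ ?_ ?_ ?_ ?_ g₀ (hyd d₀ 0 rfl rfl)
  · intro d s hK
    obtain ⟨k1, k2⟩ := key d s
    rw [hf _ _ _ hK] at k1 k2
    exact ⟨(Submodule.Quotient.mk_eq_zero _).1 k1, (Submodule.Quotient.mk_eq_zero _).1 k2⟩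
  · intro d s
    by_cases hK : K d s
    · rw [hf _ _ _ hK, hg, hg, ← mul_assoc, hy.GG, mul_comm (h jS), mul_assoc]
      exact hπ (kG (W_l (hcW _ _ hK e m₁)))
    · rw [hf0 _ _ _ hK, map_zero, map_zero]
  · intro d s
    by_cases hK : K d s
    swap
    · simp only [R, if_neg hK]
      exact zero_mem _
    simp only [R, if_pos hK]
    rw [map_SS]
    refine SS_mem fun d₁ s₁ d₂ s₂ h1 h2 => ?_
    split_ifs with h3
    · rw [map_zero]
      exact zero_mem _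
    have hJ : Q.op d₁ (h jG ::ₘ h jG ::ₘ s₁) ∈ A :=
      hy.opA _ _ (((hK.2.2.left h2).cons (hy.hA jG)).cons (hy.hA jG))
        (two_le_card _ Multiset.cons_ne_zero)
    rcases cs hK h1 h2 with ⟨-, hK₂⟩ | ⟨k1, -, -⟩
    · refine Submodule.subset_span ⟨d₂, Q.op d₁ (h jG ::ₘ h jG ::ₘ s₁) ::ₘ s₂, ?_, ?_⟩
      · have := ad jG h1
        omega
      · rw [hf _ _ _ ⟨hK₂.1, hK₂.2.1, hK₂.2.2.cons hJ⟩, hcl _ _ _ hK₂.1 Multiset.cons_ne_zero]
    · rw [ih _ _ _ k1.ne, map_zero]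
      exact zero_mem _
  · intro d s hK
    have e1 := E1 e m₁ d s hK
    rw [L1 (fun _ => n) e p r hpr hpr0 d s hK, L2 (fun _ => n) e d s hK, ← smul_SS, ← smul_SS,
      ← smul_add, ← smul_add] at e1
    exact smul_right_injective _ hnk e1
  · intro d s hK
    have e1 := E1 _ m₂ d s hK
    rw [L1 (fun _ => n) _ y τ hyt hyt0 d s hK, L2 (fun _ => n) _ d s hK, ← smul_SS, ← smul_SS,
      ← smul_add, ← smul_add, hf (h jG * (h jG * e)) _ _ hK, ← mul_assoc, hy.GG, mul_assoc,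
      hcl' _ _ _ hK.2.1, hπ (W_l (hcW _ _ hK _ m₂)), zero_add] at e1
    exact smul_right_injective _ hnk e1
  · intro d s hK
    have le : ∀ {d₁ d₂ : ι →₀ ℕ}, d₁ + d₂ = d → d₂ jA ≤ n := fun h1 => by
      have := ad jA h1
      have := hK.1
      omega
    have e0 := wd Q d s (h jG) e (h jG)
    simp only [Multiset.cons_swap (h jG) e, Multiset.cons_swap _ e] at e0
    have e1 := congrArg W'.mkQ e0.symm
    have e4 : W'.mkQ (SS d s fun d₁ s₁ d₂ s₂ =>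
        Q.op d₂ (e ::ₘ Q.op d₁ (h jG ::ₘ h jG ::ₘ s₁) ::ₘ s₂)) = W'.mkQ (SS d s fun d₁ s₁ d₂ s₂ =>
        C d₂ (Q.op d₁ (h jG ::ₘ h jG ::ₘ s₁) ::ₘ s₂) e) := by
      rw [map_SS, map_SS]
      refine SS_congr fun d₁ s₁ d₂ s₂ h1 h2 => ?_
      rcases cs hK h1 h2 with ⟨-, hK₂⟩ | ⟨k1, k2, k3⟩
      · rw [hC _ _ _ hK₂.1]
      · rw [ih _ _ _ k1.ne, map_zero]
        exact hπ (Submodule.mem_sup_left (ihM _ _ k1 k2 (k3.cons (hy.opA _ _
          (((hK.2.2.left h2).cons (hy.hA jG)).cons (hy.hA jG))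
          (two_le_card _ Multiset.cons_ne_zero))) Multiset.cons_ne_zero e m₁))
    have e2 : C d (Q.op 0 (h jG ::ₘ h jG ::ₘ 0) ::ₘ s) e = h jS * C d (h jG ::ₘ s) e := by
      rw [Q.cl, hy.GG, hC _ _ _ hK.1, hC _ _ _ hK.1, Multiset.cons_swap,
        op_lin dv hK.2.1 _ Multiset.cons_ne_zero, Multiset.cons_swap]
    rw [e4, SS₂ d s hK _ (hy.hA jG) _ (hy.hA jG) e m₁,
      SS_split jG fun d₁ s₁ d₂ s₂ _ _ h3 h4 => by
        rw [op_div_zero dv h3 _ h4]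
        by_cases h5 : d₂ jA = n
        · rw [hC _ _ _ h5, Multiset.cons_swap, Q.op_zero]
        · exact ih _ _ _ h5,
      map_add, e2, hπ (W_l (ht d _ hK.1 hK.2.1 (hK.2.2.cons (hy.hA jG))
        Multiset.cons_ne_zero e m₁)), zero_add,
      SS_congr (F := fun d₁ s₁ d₂ s₂ => C d₂ (h jG ::ₘ s₂) (Q.op d₁ (e ::ₘ h jG ::ₘ s₁)))
        fun d₁ s₁ d₂ s₂ h1 _ => hcG d₂ s₂ _ (le h1),
      L1 (fun d => d jG) e p r hpr hpr0 d s hK,
      SS_congr (F := fun d₁ s₁ d₂ s₂ => Q.op d₂ (C d₁ (h jG ::ₘ s₁) e ::ₘ h jG ::ₘ s₂))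
        (G := fun d₁ s₁ d₂ s₂ => (d₁ jG : k) • Q.op d₂ (c d₁ s₁ e ::ₘ h jG ::ₘ s₂))
        fun d₁ s₁ d₂ s₂ h1 _ => by rw [hcG d₁ s₁ _ (le ((add_comm _ _).trans h1)), Q.smul],
      L2 (fun d => d jG) e d s hK] at e1
    simp only [R, if_pos hK]
    exact e1
  · intro d s h0
    by_cases hK : K d s
    · have := hy.fin d _ h0 hK.2.1 (hK.2.2.cons (hy.hA jA)) Multiset.cons_ne_zero
      rw [← hC _ _ _ hK.1, hc] at this
      rw [hf _ _ _ hK]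
      exact hπ (Submodule.mem_sup_left ((Submodule.smul_mem_iff _ hnk).1 this))
    · exact hf0 _ _ _ hK

/-- **(GC)**, invariance form -/
theorem HypI.keeps (hy : HypI Q A h jA jG jS e) (d : ι →₀ ℕ) (l : Multiset H) (hS : d jS = 0)
    (hl : In A l) (hl0 : l ≠ 0) :
    ∀ x ∈ Me k (h jS) (h jG) e, Q.op d (x ::ₘ l) ∈ Me k (h jS) (h jG) e := by
  induction hn : d jA using Nat.strong_induction_on generalizing d l with
  | _ n ih =>
  rcases eq_or_ne n 0 with rfl | h0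
  · exact Me_le_comap (Q.opl d l) (fun x => op_lin hy.dv hS x hl0) (fun x hx => lam_mul_Me hx)
      (hy.keep d l hn hS hl hl0).1 (hy.keep d l hn hS hl hl0).2
  obtain ⟨t₀, ht₀⟩ := Wf_bot (k := k) hy.nilD hy.nilS
  have : ∀ t, ∀ (d : ι →₀ ℕ) l, d jA = n → d jS = 0 → In A l → l ≠ 0 →
      ∀ x ∈ Me k (h jS) (h jG) e,
        Q.op d (x ::ₘ l) ∈ Me k (h jS) (h jG) e ⊔ Wf k (h jA) (h jS) t := fun t => by
    induction t with
    | zero => exact fun _ _ _ _ _ _ _ _ => Submodule.mem_sup_right trivial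
    | succ t iht => exact stepI hy h0 (fun d l a b c d' => ih _ a d l b c d' rfl) t iht
  intro x hx
  obtain ⟨a, ha, b, hb, e1⟩ := Submodule.mem_sup.1 (this t₀ d l hn hS hl hl0 x hx)
  rwa [← e1, ht₀ b hb, add_zero]

/-- **(GC)** with the hypotheses `vert` (linearity of the vertical operations) and `kill` -/
theorem gc_inv (dv : ∀ j, Q.IsDiv (h j) fun d => (d j : k)) (hA : ∀ j, h j ∈ A) (h1 : (1 : H) ∈ A)
    (opA : ∀ d l, In A l → 2 ≤ Multiset.card l → Q.op d l ∈ A)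
    (nilS : IsNilpotent (h jS)) (nilD : IsNilpotent (h jA)) (GG : h jG * h jG = h jS * h jG)
    (De : h jA * e = 0)
    (vert : ∀ (d : ι →₀ ℕ) l, d jA = 0 → d jS = 0 → In A l → l ≠ 0 → ∀ x ∈ A,
      Q.op d ((e * x) ::ₘ l) = e * Q.op d (x ::ₘ l))
    (kill : ∀ a ∈ A, e * a ∈ Me k (h jS) (h jG) e)
    (num : ∃ d : ι →₀ ℕ, d jA = 0 ∧ d jS = 0 ∧ d jG = 1 ∧ ∃ y t : k, y ≠ 0 ∧
      ∃ z ∈ Me k (h jS) (h jG) e,
        Q.op d ((h jG * e) ::ₘ h jG ::ₘ 0) = y • e + t • (h jG * e) + h jS * z)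
    (fin : ∀ (d : ι →₀ ℕ) l, d jG = 0 → d jS = 0 → In A l → l ≠ 0 →
      Q.op d ((h jG * e) ::ₘ l) ∈ Me k (h jS) (h jG) e)
    (d : ι →₀ ℕ) (l : Multiset H) (hS : d jS = 0) (hl : In A l) (hl0 : l ≠ 0) :
    ∀ x ∈ Me k (h jS) (h jG) e, Q.op d (x ::ₘ l) ∈ Me k (h jS) (h jG) e := by
  refine HypI.keeps ⟨dv, hA, opA, nilD, nilS, GG, De, fun d l a b c c' => ⟨?_, ?_⟩, num, fin⟩
    d l hS hl hl0
  · have := vert d l a b c c' 1 h1
    rw [mul_one] at this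
    rw [this]
    exact kill _ (opA _ _ (c.cons h1) (two_le_card _ c'))
  · rw [mul_comm, vert d l a b c c' _ (hA jG)]
    exact kill _ (opA _ _ (c.cons (hA jG)) (two_le_card _ c'))

end Crest.Agent.X262.Gc84
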